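import Mathlib

/-!
Losing densities of skew payoff matrices, and Fisher's inequality on a set without bad triples.
-/

namespace Vale.Agent.P038.BiHole

open Finset

/-- Every skew matrix has a losing density. -/
lemma exists_losing {ι : Type} [Fintype ι] [Nonempty ι] (K : ι → ι → ℝ)
    (skew : ∀ i j, K i j = - K j i) :
    ∃ p : ι → ℝ, (∀ i, 0 ≤ p i) ∧ ∑ i, p i = 1 ∧ ∀ i, 0 ≤ ∑ j, K i j * p j := by
  classical
  by_contra hc
  push Not at hc
  let L : (ι → ℝ) →ₗ[ℝ] (ι → ℝ) := Matrix.mulVecLin (Matrix.of K)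
  have hL : ∀ p i, L p i = ∑ j, K i j * p j := fun p i => rfl
  have cont : Continuous L := L.continuous_of_finiteDimensional
  let T : Set (ι → ℝ) := L '' stdSimplex ℝ ι
  let C : Set (ι → ℝ) := Set.Ici 0
  have hTc : IsCompact T := (isCompact_stdSimplex ℝ ι).image cont
  have hTv : Convex ℝ T := (convex_stdSimplex ℝ ι).linear_image L
  have hdis : Disjoint T C := by
    rw [Set.disjoint_left]
    rintro x ⟨p, hp, rfl⟩ hx
    obtain ⟨i, hi⟩ := hc p hp.1 hp.2
    have : 0 ≤ L p i := (Set.mem_Ici.1 hx) i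
    rw [hL] at this
    linarith
  obtain ⟨f, u, v, hfT, huv, hfC⟩ :=
    geometric_hahn_banach_compact_closed hTv hTc (convex_Ici 0) isClosed_Ici hdis
  have hv : v < 0 := by simpa using hfC 0 (Set.self_mem_Ici)
  let y : ι → ℝ := fun i => f (Pi.single i 1)
  have hf : ∀ x : ι → ℝ, f x = ∑ i, x i * y i := by
    intro x
    conv_lhs => rw [← univ_sum_single x]
    rw [map_sum]
    refine sum_congr rfl fun i _ => ?_
    have h1 : (Pi.single i (x i) : ι → ℝ) = x i • (Pi.single i (1 : ℝ)) := by
      rw [← Pi.single_smul, smul_eq_mul, mul_one]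
    rw [h1, map_smul, smul_eq_mul]
  have hy : ∀ i, 0 ≤ y i := by
    intro i
    by_contra hi
    push Not at hi
    have hmem : (v / y i) • (Pi.single i (1 : ℝ) : ι → ℝ) ∈ C := by
      have h0 : (0 : ℝ) ≤ v / y i := (div_pos_of_neg_of_neg hv hi).le
      exact Set.mem_Ici.2 (smul_nonneg h0 (Pi.single_nonneg.2 zero_le_one))
    have := hfC _ hmem
    rw [map_smul, smul_eq_mul, div_mul_cancel₀ _ hi.ne] at this
    exact lt_irrefl _ this
  have hquad : ∑ i, (∑ j, K i j * y j) * y i = 0 := by
    simp only [sum_mul]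
    have h := sum_comm (s := (univ : Finset ι)) (t := (univ : Finset ι))
      (f := fun i j => K i j * y j * y i)
    have h2 : ∑ j, ∑ i, K i j * y j * y i = - ∑ i, ∑ j, K i j * y j * y i := by
      rw [← sum_neg_distrib]
      refine sum_congr rfl fun a _ => ?_
      rw [← sum_neg_distrib]
      refine sum_congr rfl fun b _ => ?_
      rw [skew b a]; ring
    linarith
  rcases (sum_nonneg fun i _ => hy i : 0 ≤ ∑ i, y i).eq_or_lt with hz | hpos
  · have hy0 : ∀ i, y i = 0 := fun i => (sum_eq_zero_iff_of_nonneg fun i _ => hy i).1 hz.symm i (mem_univ i)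
    obtain ⟨i₀⟩ := ‹Nonempty ι›
    have := hfT _ ⟨Pi.single i₀ 1, single_mem_stdSimplex ℝ i₀, rfl⟩
    rw [hf] at this
    simp [hy0] at this
    linarith
  · let p : ι → ℝ := (∑ i, y i)⁻¹ • y
    have hp : p ∈ stdSimplex ℝ ι := ⟨fun i => mul_nonneg (inv_nonneg.2 hpos.le) (hy i), by
      simp only [p, Pi.smul_apply, smul_eq_mul, ← mul_sum, inv_mul_cancel₀ hpos.ne']⟩
    have := hfT _ ⟨p, hp, rfl⟩
    rw [map_smul, map_smul, smul_eq_mul, hf] at this
    simp only [hL, hquad, mul_zero] at this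
    linarith

variable {V : Type} [DecidableEq V]

/-- The orientation-free inequality: some vertex of `S` is good inside `S`, up to one vertex. -/
lemma good_in_set (D : V → V → Prop) [DecidableRel D] (S : Finset V) (hS : S.Nonempty)
    (K : V → V → ℝ) (skew : ∀ a b, K a b = - K b a) (hK : ∀ a b, K a b ≤ 1)
    (far : V → V → Prop) [DecidableRel far]
    (arc : ∀ r z, D r z → K r z = 1)
    (good : ∀ z ∈ S, ∀ r ∈ S, ∀ y ∈ S, D r z → far y z → K r y = 1)
    (far_ne : ∀ y z, far y z → y ≠ z ∧ ¬ D y z) :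
    ∃ y ∈ S, (S.filter fun z => D y z).card ≤
      (S.filter fun z => y ≠ z ∧ ¬ D y z ∧ ¬ far y z).card + 1 := by
  classical
  haveI : Nonempty {x // x ∈ S} := hS.to_subtype
  obtain ⟨q, hq0, hq1, hqK⟩ := exists_losing (fun a b : {x // x ∈ S} => K a b) (fun a b => skew a b)
  let p : V → ℝ := fun v => if h : v ∈ S then q ⟨v, h⟩ else 0
  have hp0 : ∀ v, 0 ≤ p v := fun v => by simp only [p]; split_ifs <;> simp [hq0]
  have hconv : ∀ g : V → ℝ, ∑ v ∈ S, g v * p v = ∑ a : {x // x ∈ S}, g a * q a := by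
    intro g
    rw [← sum_coe_sort]
    refine sum_congr rfl fun a _ => ?_
    simp [p]
  have hp1 : ∑ v ∈ S, p v = 1 := by
    have := hconv (fun _ => 1)
    simp only [one_mul] at this
    rw [this, hq1]
  have hrow : ∀ a ∈ S, 0 ≤ ∑ v ∈ S, K a v * p v := fun a ha => by
    rw [hconv]; exact hqK ⟨a, ha⟩
  -- the inequality for one target
  have perz : ∀ z ∈ S, ∑ v ∈ S, (if D v z then p v else 0) ≤
      ∑ v ∈ S, (if v ≠ z ∧ ¬ D v z ∧ ¬ far v z then p v else 0) + p z := by
    intro z hz
    rw [← sum_filter, ← sum_filter]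
    set R := S.filter fun v => D v z
    set X := S.filter fun v => v ≠ z ∧ ¬ D v z ∧ ¬ far v z
    set Y := S.filter fun v => far v z
    have split : ∀ g : V → ℝ,
        ∑ v ∈ S, g v = ∑ v ∈ R, g v + ∑ v ∈ X, g v + ∑ v ∈ Y, g v +
          ∑ v ∈ S, (if v = z ∧ ¬ D v z then g v else 0) := by
      intro g
      simp only [R, X, Y, sum_filter, ← sum_add_distrib]
      refine sum_congr rfl fun v _ => ?_
      by_cases h1 : D v z
      · have : ¬ far v z := fun h => (far_ne v z h).2 h1
        simp [h1, this]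
      · by_cases h2 : v = z
        · subst h2
          have : ¬ far v v := fun h => (far_ne v v h).1 rfl
          simp [h1, this]
        · by_cases h3 : far v z <;> simp [h1, h2, h3]
    have single : ∀ g : V → ℝ, (∀ v, 0 ≤ g v) →
        ∑ v ∈ S, (if v = z ∧ ¬ D v z then g v else 0) ≤ g z := by
      intro g hg
      calc _ ≤ ∑ v ∈ S, (if v = z then g v else 0) := sum_le_sum fun v _ => by
              by_cases h : v = z
              · subst h
                by_cases h' : D v v <;> simp [h', hg]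
              · simp [h]
        _ = g z := by simp [hz]
    rcases (sum_nonneg fun v _ => hp0 v : 0 ≤ ∑ v ∈ Y, p v).eq_or_lt with h0 | hpos
    · have hY : ∀ v ∈ Y, p v = 0 := (sum_eq_zero_iff_of_nonneg fun v _ => hp0 v).1 h0.symm
      have h := hrow z hz
      rw [split] at h
      have e1 : ∑ v ∈ R, K z v * p v = - ∑ v ∈ R, p v := by
        rw [← sum_neg_distrib]
        refine sum_congr rfl fun v hv => ?_
        rw [skew, arc v z (mem_filter.1 hv).2]; ring
      have e2 : ∑ v ∈ X, K z v * p v ≤ ∑ v ∈ X, p v := sum_le_sum fun v _ =>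
        mul_le_of_le_one_left (hp0 v) (hK z v)
      have e3 : ∑ v ∈ Y, K z v * p v = 0 := sum_eq_zero fun v hv => by simp [hY v hv]
      have e4 : ∑ v ∈ S, (if v = z ∧ ¬ D v z then K z v * p v else 0) ≤ 0 := by
        refine le_of_eq (sum_eq_zero fun v _ => ?_)
        by_cases hv : v = z
        · subst hv
          have : K v v = 0 := by linarith [skew v v]
          simp [this]
        · simp [hv]
      linarith [hp0 z]
    · have h : 0 ≤ ∑ y ∈ Y, p y * ∑ v ∈ S, K y v * p v :=
        sum_nonneg fun y hy => mul_nonneg (hp0 y) (hrow y (mem_filter.1 hy).1)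
      rw [sum_congr rfl fun y _ => congrArg (p y * ·) (split fun v => K y v * p v)] at h
      simp only [mul_add, sum_add_distrib] at h
      have e1 : ∑ y ∈ Y, p y * ∑ v ∈ R, K y v * p v = - ((∑ y ∈ Y, p y) * ∑ v ∈ R, p v) := by
        rw [sum_mul, ← sum_neg_distrib]
        refine sum_congr rfl fun y hy => ?_
        rw [← mul_neg, ← sum_neg_distrib]
        congr 1
        refine sum_congr rfl fun v hv => ?_
        rw [skew, good z hz v (mem_filter.1 hv).1 y (mem_filter.1 hy).1 (mem_filter.1 hv).2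
          (mem_filter.1 hy).2]
        ring
      have e2 : ∑ y ∈ Y, p y * ∑ v ∈ X, K y v * p v ≤ (∑ y ∈ Y, p y) * ∑ v ∈ X, p v := by
        rw [sum_mul]
        exact sum_le_sum fun y _ => mul_le_mul_of_nonneg_left
          (sum_le_sum fun v _ => mul_le_of_le_one_left (hp0 v) (hK y v)) (hp0 y)
      have e3 : ∑ y ∈ Y, p y * ∑ v ∈ Y, K y v * p v = 0 := by
        simp only [mul_sum]
        have hc := sum_comm (s := Y) (t := Y) (f := fun a b => p a * (K a b * p b))
        have hn : ∑ b ∈ Y, ∑ a ∈ Y, p a * (K a b * p b) = - ∑ a ∈ Y, ∑ b ∈ Y, p a * (K a b * p b) := by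
          rw [← sum_neg_distrib]
          refine sum_congr rfl fun a _ => ?_
          rw [← sum_neg_distrib]
          refine sum_congr rfl fun b _ => ?_
          rw [skew b a]; ring
        linarith
      have e4 : ∑ y ∈ Y, p y * ∑ v ∈ S, (if v = z ∧ ¬ D v z then K y v * p v else 0) ≤
          (∑ y ∈ Y, p y) * p z := by
        rw [sum_mul]
        refine sum_le_sum fun y _ => mul_le_mul_of_nonneg_left ?_ (hp0 y)
        refine (sum_le_sum fun v _ => ?_).trans (single p hp0)
        split_ifs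
        · exact mul_le_of_le_one_left (hp0 _) (hK _ _)
        · exact le_rfl
      have hmul : (∑ y ∈ Y, p y) * ∑ v ∈ R, p v ≤
          (∑ y ∈ Y, p y) * (∑ v ∈ X, p v + p z) := by
        rw [mul_add]; linarith
      exact le_of_mul_le_mul_left hmul hpos
  by_contra hc
  push Not at hc
  have hsum := sum_le_sum perz
  rw [sum_add_distrib, hp1, sum_comm, sum_comm (f := fun z v => if v ≠ z ∧ ¬ D v z ∧ ¬ far v z then p v else 0),
    ← hp1, ← sum_add_distrib] at hsum
  obtain ⟨v₀, hv₀, hv₀p⟩ : ∃ v ∈ S, 0 < p v :=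
    exists_lt_of_sum_lt (s := S) (f := fun _ => (0 : ℝ)) (by simp [hp1])
  refine absurd hsum (not_le.2 (sum_lt_sum (fun v hv => ?_) ⟨v₀, hv₀, ?_⟩))
  all_goals
    simp only [← sum_filter, sum_const, nsmul_eq_mul]
  · have := hc v hv
    have h' : (((S.filter fun z => v ≠ z ∧ ¬ D v z ∧ ¬ far v z).card : ℝ) + 1) ≤
        (S.filter fun z => D v z).card := by exact_mod_cast this.le
    nlinarith [hp0 v]
  · have := hc v₀ hv₀
    have h' : (((S.filter fun z => v₀ ≠ z ∧ ¬ D v₀ z ∧ ¬ far v₀ z).card : ℝ) + 1) <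
        (S.filter fun z => D v₀ z).card := by exact_mod_cast this
    nlinarith [hv₀p]

end Vale.Agent.P038.BiHole
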