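import Mathlib

/-!
Counting maps from a small index set: fixed values, collisions, and one deviation bound.
-/

namespace Vale.Agent.P038.BiHole

open Finset Real

variable {V : Type} [Fintype V] [DecidableEq V] {s : ℕ}

/-- Maps with prescribed values on `I`. -/
lemma card_fixed (I : Finset (Fin s)) (g : Fin s → V) :
    ((univ.filter fun f : Fin s → V => ∀ i ∈ I, f i = g i).card : ℝ) * (Fintype.card V : ℝ) ^ I.card =
      (Fintype.card V : ℝ) ^ s := by
  classical
  have h : (univ.filter fun f : Fin s → V => ∀ i ∈ I, f i = g i) =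
      Fintype.piFinset fun i => if i ∈ I then {g i} else univ := by
    ext f
    simp only [mem_filter, mem_univ, true_and, Fintype.mem_piFinset]
    exact ⟨fun h i => by split_ifs with hi <;> simp_all, fun h i hi => by simpa [hi] using h i⟩
  rw [h, Fintype.card_piFinset]
  have h2 : ∀ i, (if i ∈ I then ({g i} : Finset V) else univ).card =
      if i ∈ I then 1 else Fintype.card V := fun i => by split_ifs <;> simp
  have e : (∏ i, if i ∈ I then 1 else Fintype.card V) = Fintype.card V ^ (Finset.univ \ I).card := by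
    rw [← prod_sdiff (subset_univ I), prod_congr rfl (fun i hi => if_neg (mem_sdiff.1 hi).2),
      prod_congr rfl (fun i hi => if_pos hi)]
    simp
  rw [prod_congr rfl (fun i _ => h2 i), e, Nat.cast_pow, ← pow_add]
  congr 1
  rw [card_sdiff_of_subset (subset_univ I), card_univ, Fintype.card_fin]
  have := card_le_univ I
  rw [Fintype.card_fin] at this
  omega

/-- A second-order bound for the exponential. -/
lemma exp_small {x : ℝ} (hx : |x| ≤ 1) : exp x ≤ 1 + x + x ^ 2 := by
  have := (abs_le.1 (abs_exp_sub_one_sub_id_le hx)).2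
  linarith

/-- An upper deviation is rare among the maps with a prescribed value at `i`. -/
lemma deviation (i : Fin s) (a : V) (g : V → ℝ) (hg : ∀ x, |g x| ≤ 1) (ha : g a = 0)
    (lam c : ℝ) (hl : 0 ≤ lam) (hl1 : lam ≤ 1) :
    ((univ.filter fun f : Fin s → V => f i = a ∧
        c ≤ ∑ j, g (f j) - ((s : ℝ) - 1) * ((∑ x, g x) / Fintype.card V)).card : ℝ) * exp (lam * c) ≤
      (Fintype.card V : ℝ) ^ (s - 1) * exp (((s - 1 : ℕ) : ℝ) * lam ^ 2) := by
  classical
  set n := (Fintype.card V : ℝ) with hn
  set μ := (∑ x, g x) / n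
  haveI : Nonempty V := ⟨a⟩
  have hn0 : 0 < n := by rw [hn]; exact_mod_cast Fintype.card_pos
  have hs : 1 ≤ s := Nat.succ_le_of_lt (Nat.lt_of_le_of_lt (Nat.zero_le _) i.2)
  let t : Fin s → Finset V := fun j => if j = i then {a} else univ
  have hmgf : ∑ x, exp (lam * g x) ≤ n * exp (lam * μ + lam ^ 2) := by
    have h1 : ∀ x, exp (lam * g x) ≤ 1 + lam * g x + lam ^ 2 := fun x => by
      have hb : |lam * g x| ≤ 1 := by
        rw [abs_mul, abs_of_nonneg hl]
        exact mul_le_one₀ hl1 (abs_nonneg _) (hg x)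
      refine (exp_small hb).trans ?_
      have : (lam * g x) ^ 2 ≤ lam ^ 2 := by
        rw [mul_pow]
        exact mul_le_of_le_one_right (sq_nonneg _) ((sq_le_one_iff_abs_le_one _).2 (hg x))
      linarith
    refine (sum_le_sum fun x _ => h1 x).trans ?_
    simp only [sum_add_distrib, sum_const, card_univ, nsmul_eq_mul, ← mul_sum, ← hn]
    have h2 := mul_le_mul_of_nonneg_left (add_one_le_exp (lam * μ + lam ^ 2)) hn0.le
    have h3 : n * μ = ∑ x, g x := mul_div_cancel₀ _ hn0.ne'
    rw [← h3]
    linarith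
  calc _ = ∑ f ∈ univ.filter (fun f : Fin s → V => f i = a ∧
          c ≤ ∑ j, g (f j) - ((s : ℝ) - 1) * μ), exp (lam * c) := by rw [sum_const, nsmul_eq_mul]
    _ ≤ ∑ f ∈ univ.filter (fun f : Fin s → V => f i = a ∧
          c ≤ ∑ j, g (f j) - ((s : ℝ) - 1) * μ),
          exp (lam * (∑ j, g (f j) - ((s : ℝ) - 1) * μ)) := sum_le_sum fun f hf =>
        exp_le_exp.2 (mul_le_mul_of_nonneg_left (mem_filter.1 hf).2.2 hl)
    _ ≤ ∑ f ∈ Fintype.piFinset t, exp (lam * (∑ j, g (f j) - ((s : ℝ) - 1) * μ)) := by
        refine sum_le_sum_of_subset_of_nonneg (fun f hf => ?_) fun f _ _ => (exp_pos _).le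
        rw [Fintype.mem_piFinset]
        intro j
        by_cases hj : j = i
        · subst hj; simp [t, (mem_filter.1 hf).2.1]
        · simp [t, hj]
    _ = exp (-(lam * (((s : ℝ) - 1) * μ))) * ∏ j, ∑ x ∈ t j, exp (lam * g x) := by
        rw [prod_univ_sum, mul_sum]
        refine sum_congr rfl fun f _ => ?_
        rw [← exp_sum, ← exp_add, ← mul_sum]
        ring_nf
    _ ≤ exp (-(lam * (((s : ℝ) - 1) * μ))) * (n * exp (lam * μ + lam ^ 2)) ^ (s - 1) := by
        refine mul_le_mul_of_nonneg_left ?_ (exp_pos _).le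
        rw [← mul_prod_erase univ _ (mem_univ i)]
        simp only [t, if_true, sum_singleton, ha, mul_zero, exp_zero, one_mul]
        refine (prod_le_prod (g := fun _ => n * exp (lam * μ + lam ^ 2)) (fun j _ => ?_)
          (fun j hj => ?_)).trans (le_of_eq ?_)
        · exact sum_nonneg fun x _ => (exp_pos _).le
        · rw [if_neg (ne_of_mem_erase hj)]; exact hmgf
        · rw [prod_const, card_erase_of_mem (mem_univ i), card_univ, Fintype.card_fin]
    _ = _ := by
        rw [mul_pow, ← exp_nat_mul, mul_left_comm, ← exp_add]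
        push_cast [Nat.cast_sub hs]
        ring_nf

end Vale.Agent.P038.BiHole
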