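import Mathlib

/-!
Orienting the missing pairs by majority of witnesses: few bad triples without a linear bi-hole.
-/

namespace Vale.Agent.P038.BiHole

open Finset

variable {V : Type}

/-- `z` is neither `y` nor within two steps from `y`. -/
def Far (D : V → V → Prop) (y z : V) : Prop := y ≠ z ∧ ¬ D y z ∧ ∀ u, D y u → ¬ D u z

variable [Fintype V] [DecidableEq V] (D : V → V → Prop)

/-- witnesses that a missing pair should be oriented from `a` to `b` -/
noncomputable def wit (a b : V) : ℝ := by
  classical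
  exact ((univ.filter fun z => D a z ∧ Far D b z).card : ℝ)

/-- the completed payoff -/
noncomputable def pay (a b : V) : ℝ := by
  classical
  exact if D a b then 1 else if D b a then -1 else
    if wit D b a < wit D a b then 1 else if wit D a b < wit D b a then -1 else 0

lemma pay_arc {a b : V} (h : D a b) : pay D a b = 1 := by
  classical
  simp [pay, h]

lemma pay_le (a b : V) : pay D a b ≤ 1 := by
  classical
  unfold pay
  split_ifs <;> norm_num

lemma pay_skew (anti : ∀ u w, D u w → ¬ D w u) (a b : V) : pay D a b = - pay D b a := by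
  classical
  by_cases h1 : D a b
  · simp [pay, h1, anti a b h1]
  by_cases h2 : D b a
  · simp [pay, h1, h2]
  rcases lt_trichotomy (wit D a b) (wit D b a) with h | h | h
  · simp [pay, h1, h2, h, h.not_gt]
  · simp [pay, h1, h2, h]
  · simp [pay, h1, h2, h, h.not_gt]

/-- the bad triples -/
noncomputable def badTriples : Finset (V × V × V) := by
  classical
  exact univ.filter fun q => D q.2.1 q.1 ∧ Far D q.2.2 q.1 ∧ pay D q.2.1 q.2.2 ≠ 1

lemma badTriples_sq (δ : ℝ) (hδ : 0 ≤ δ)
    (hole : ∀ X Y : Finset V, Disjoint X Y → δ * Fintype.card V ≤ X.card →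
      δ * Fintype.card V ≤ Y.card → ∃ x ∈ X, ∃ y ∈ Y, D x y ∨ D y x) :
    ((badTriples D).card : ℝ) ^ 2 ≤ δ * (Fintype.card V : ℝ) ^ 6 := by
  classical
  set n := (Fintype.card V : ℝ) with hn
  have hn0 : 0 ≤ n := Nat.cast_nonneg _
  let M : Finset (V × V) := univ.filter fun e => pay D e.1 e.2 ≠ 1
  have hcount : ((badTriples D).card : ℝ) = ∑ e ∈ M, wit D e.1 e.2 := by
    have h1 : (badTriples D).card = ∑ e ∈ M, (univ.filter fun z => D e.1 z ∧ Far D e.2 z).card := by
      rw [card_eq_sum_card_fiberwise (f := fun q : V × V × V => q.2) (t := M)]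
      · refine sum_congr rfl fun e he => ?_
        simp only [M, mem_filter, mem_univ, true_and] at he
        refine card_bij (fun q _ => q.1) (fun q hq => ?_) (fun a ha b hb h => ?_) (fun z hz => ?_)
        · simp only [badTriples, mem_filter, mem_univ, true_and] at hq
          obtain ⟨⟨h1, h2, -⟩, rfl⟩ := hq
          simp [h1, h2]
        · simp only [mem_filter] at ha hb
          exact Prod.ext h (ha.2.trans hb.2.symm)
        · refine ⟨(z, e), ?_, rfl⟩
          simp only [mem_filter, mem_univ, true_and] at hz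
          simp [badTriples, hz, he]
      · intro q hq
        simp only [badTriples, mem_coe, mem_filter, mem_univ, true_and] at hq
        simp [M, hq.2.2]
    rw [h1]; push_cast
    rfl
  have hmaj : ∀ e ∈ M, wit D e.1 e.2 ^ 2 ≤ wit D e.1 e.2 * wit D e.2 e.1 := by
    intro e he
    simp only [M, mem_filter, mem_univ, true_and] at he
    have h0 : 0 ≤ wit D e.1 e.2 := Nat.cast_nonneg _
    by_cases h2 : D e.2 e.1
    · have : wit D e.1 e.2 = 0 := by
        simp only [wit, Nat.cast_eq_zero, card_eq_zero]
        exact filter_false_of_mem fun z _ hz => hz.2.2.2 _ h2 hz.1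
      simp [this]
    have h1 : ¬ D e.1 e.2 := fun h => he (pay_arc D h)
    have h3 : ¬ wit D e.2 e.1 < wit D e.1 e.2 := fun h => he (by simp [pay, h1, h2, h])
    rw [sq]
    exact mul_le_mul_of_nonneg_left (not_lt.1 h3) h0
  let P : V → V → Finset V := fun z z' => univ.filter fun a => D a z ∧ Far D a z'
  have hquad : ∑ e : V × V, wit D e.1 e.2 * wit D e.2 e.1 ≤ δ * n ^ 4 := by
    have e1 : ∀ e : V × V, wit D e.1 e.2 * wit D e.2 e.1 =
        ∑ z, ∑ z', (if e.1 ∈ P z z' then (1 : ℝ) else 0) * (if e.2 ∈ P z' z then 1 else 0) := by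
      intro e
      simp only [wit, ← sum_boole, sum_mul_sum]
      refine sum_congr rfl fun z _ => sum_congr rfl fun z' _ => ?_
      by_cases a1 : D e.1 z <;> by_cases a2 : Far D e.2 z <;> by_cases a3 : D e.2 z' <;>
        by_cases a4 : Far D e.1 z' <;> simp [P, a1, a2, a3, a4]
    rw [sum_congr rfl fun e _ => e1 e, sum_comm]
    have e2 : ∀ z z', ∑ e : V × V,
        (if e.1 ∈ P z z' then (1 : ℝ) else 0) * (if e.2 ∈ P z' z then 1 else 0) =
          (P z z').card * (P z' z).card := by
      intro z z'
      rw [Fintype.sum_prod_type]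
      have h1 : ∀ S : Finset V, ∑ x : V, (if x ∈ S then (1 : ℝ) else 0) = S.card := fun S => by simp
      calc ∑ x : V, ∑ y : V, (if x ∈ P z z' then (1 : ℝ) else 0) * (if y ∈ P z' z then 1 else 0)
          = ∑ x : V, (if x ∈ P z z' then (1 : ℝ) else 0) * (P z' z).card :=
            sum_congr rfl fun x _ => by rw [← mul_sum, h1]
        _ = _ := by rw [← sum_mul, h1]
    have e3 : ∀ z z', ((P z z').card : ℝ) * (P z' z).card ≤ δ * n ^ 2 := by
      intro z z'
      have small : ((P z z').card : ℝ) < δ * n ∨ ((P z' z).card : ℝ) < δ * n := by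
        by_contra hc
        push Not at hc
        obtain ⟨a, ha, b, hb, hab⟩ := hole (P z z') (P z' z) (disjoint_left.2 fun a ha hb => by
          simp only [P, mem_filter, mem_univ, true_and] at ha hb
          exact hb.2.2.1 ha.1) hc.1 hc.2
        simp only [P, mem_filter, mem_univ, true_and] at ha hb
        rcases hab with h | h
        · exact ha.2.2.2 b h hb.1
        · exact hb.2.2.2 a h ha.1
      have b1 : ((P z z').card : ℝ) ≤ n := Nat.cast_le.2 (card_le_univ _)
      have b2 : ((P z' z).card : ℝ) ≤ n := Nat.cast_le.2 (card_le_univ _)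
      have hδn : 0 ≤ δ * n := mul_nonneg hδ hn0
      rcases small with h | h
      · calc _ ≤ δ * n * n := mul_le_mul h.le b2 (Nat.cast_nonneg _) hδn
          _ = _ := by ring
      · calc _ ≤ n * (δ * n) := mul_le_mul b1 h.le (Nat.cast_nonneg _) hn0
          _ = _ := by ring
    calc _ = ∑ z, ∑ z', ((P z z').card : ℝ) * (P z' z).card := by
          refine sum_congr rfl fun z _ => ?_
          rw [sum_comm]
          exact sum_congr rfl fun z' _ => e2 z z'
      _ ≤ ∑ _z : V, ∑ _z' : V, δ * n ^ 2 := sum_le_sum fun z _ => sum_le_sum fun z' _ => e3 z z'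
      _ = _ := by simp only [sum_const, card_univ, nsmul_eq_mul, ← hn]; ring
  have hM : (M.card : ℝ) ≤ n ^ 2 := by
    have : M.card ≤ Fintype.card (V × V) := card_le_univ M
    rw [Fintype.card_prod] at this
    rw [hn, sq]
    exact_mod_cast this
  rw [hcount]
  calc (∑ e ∈ M, wit D e.1 e.2) ^ 2 ≤ M.card * ∑ e ∈ M, wit D e.1 e.2 ^ 2 := sq_sum_le_card_mul_sum_sq
    _ ≤ n ^ 2 * ∑ e : V × V, wit D e.1 e.2 * wit D e.2 e.1 := by
        refine mul_le_mul hM ((sum_le_sum hmaj).trans (sum_le_sum_of_subset_of_nonneg (subset_univ _)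
          fun e _ _ => mul_nonneg (Nat.cast_nonneg _) (Nat.cast_nonneg _))) ?_ (sq_nonneg n)
        exact sum_nonneg fun e _ => sq_nonneg _
    _ ≤ n ^ 2 * (δ * n ^ 4) := mul_le_mul_of_nonneg_left hquad (sq_nonneg n)
    _ = δ * n ^ 6 := by ring

end Vale.Agent.P038.BiHole
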